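import Vale.Agent.Lib.P335g.JBridge

/-!
# P335g, J3: `johnson_gap` and `johnson_main` (the fibrewise form of (F2)) are proved in
`JBridge.lean` (transport of `Lib/P335G/JohnsonF2.lean`); this file only re-exports them.
-/
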